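import Vale.Agent.P277.H60.X.Good
import Vale.Agent.P277.A.Basic
import Vale.Agent.P277.Stmts4

/-!
# P277, T3, (EXS): interface (places of `B` along a surface of a singular space)
-/

open scoped Manifold ContDiff Topology
open Vale.Agent.P272.K Vale.Agent.P285.H281.FD Set Filter Metric

noncomputable section

namespace Vale.Agent.P277.H615.X

open Vale.Agent.P277 Vale.Agent.P277.H762 Vale.Agent.P277.T3 Vale.Agent.P277.H60.X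
  Vale.Agent.P277.TX

/-- a covering adapted to the surface `S`, parametrised by `g` -/
structure AdmP (X : CSp) (S V : Set X.pt) (G : X.pt → Cm 4) (R : ℝ) (d : ℕ) (lam : X.pt → ℂ)
    (θ : Cm 4 → ℂ) (N : ℕ) (ζ : Fin N → X.pt → ℂ) (g : Cm 2 → X.pt) : Prop where
  cov : IsCov X V G 0 R d lam θ
  coord : IsCoord X V ζ
  mem : ∀ x ∈ V, x ∈ S → G x 0 = 0 ∧ G x 1 = 0 ∧ g (lst (G x)) = x
  par : ∀ p ∈ ball (0 : Cm 2) R, HolAt X g p ∧ g p ∈ S ∧ g p ∈ V ∧ G (g p) = zz p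

/-- (E1) -/
def StAdmP : Prop :=
  ∀ (Y : Type) [TopologicalSpace Y] [T2Space Y] [CompactSpace Y] [ChartedSpace (Cm 4) Y]
    [IsManifold 𝓘(ℂ, Cm 4) ω Y] (X : CSp) (_ : IsNormal 4 X) (O : Set Y) (v : Y → X.pt)
    (_ : IsOpenEmb X O v) (_ : DimLe X 2 (v '' O)ᶜ) (S : Set X.pt) (_ : IsAn X univ S)
    (_ : S ⊆ (v '' O)ᶜ) (x₀ : X.pt) (_ : IsSurfX X S x₀) (U : Set X.pt) (_ : IsOpen U)
    (_ : x₀ ∈ U),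
    ∃ (V : Set X.pt) (G : X.pt → Cm 4) (R : ℝ) (d : ℕ) (lam : X.pt → ℂ) (θ : Cm 4 → ℂ) (N : ℕ)
      (ζ : Fin N → X.pt → ℂ) (g : Cm 2 → X.pt), AdmP X S V G R d lam θ N ζ g ∧ x₀ ∈ V ∧ V ⊆ U

/-- the lifts `Gam j` of the map `c` near `(0, p)` -/
structure LiftFib (X : CSp) (V : Set X.pt) (G : X.pt → Cm 4) (c : Cm 3 → Cm 4) (p : Cm 2)
    (ρ : ℝ) (e : ℕ) (q : Fin e → ℕ) (Gam : Fin e → Cm 3 → X.pt) : Prop where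
  pos : 0 < ρ
  qpos : ∀ j, 1 ≤ q j
  hol : ∀ j, ∀ w ∈ ball (zx p) ρ, HolAt X (Gam j) w ∧ Gam j w ∈ V ∧
    G (Gam j w) = c ![w 0 ^ q j, w 1, w 2]
  cover : ∃ δ > 0, ∀ w ∈ ball (zx p) δ, w 0 ≠ 0 → ∀ x ∈ V, G x = c w →
    ∃ j, ∃ w' ∈ ball (zx p) ρ, w' 0 ^ q j = w 0 ∧ w' 1 = w 1 ∧ w' 2 = w 2 ∧ Gam j w' = x

/-- (E2) -/
def StLiftFib : Prop :=
  ∀ (X : CSp) (V : Set X.pt) (G : X.pt → Cm 4) (z₀ : Cm 4) (r : ℝ) (d : ℕ) (lam : X.pt → ℂ)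
    (θ : Cm 4 → ℂ) (_ : IsCov X V G z₀ r d lam θ) (N : ℕ) (ζ : Fin N → X.pt → ℂ)
    (_ : IsCoord X V ζ) (b : Cm 3) (_ : b 0 = 0) (R : ℝ) (c : Cm 3 → Cm 4)
    (_ : ∀ w ∈ ball b R, AnalyticAt ℂ c w ∧ c w ∈ ball z₀ r),
    Cv 1 {p : Cm 2 | zx p ∈ ball b R ∧ ¬ ∃ (ρ : ℝ) (e : ℕ) (q : Fin e → ℕ)
      (Gam : Fin e → Cm 3 → X.pt), LiftFib X V G c p ρ e q Gam}

/-- the places of `B` along `S` at `g p₀` (`B'` is the part of `B` which is covered) -/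
structure PlX (X : CSp) (S B B' V : Set X.pt) (G : X.pt → Cm 4) (M : Cm 4 → ℂ)
    (g : Cm 2 → X.pt) (d : ℕ) (p₀ : Cm 2) (r : ℝ) (Γ : Fin d → Cm 3 → X.pt) : Prop where
  pos : 0 < r
  par : ∀ p ∈ ball p₀ r, HolAt X g p ∧ g p ∈ S ∧ g p ∈ V ∧ G (g p) = zz p
  hol : ∀ k, ∀ w ∈ ball (zx p₀) r, HolAt X (Γ k) w ∧ Γ k w ∈ V ∧ Γ k w ∈ B
  exc : ∀ k, ∀ p ∈ ball p₀ r, Γ k (zx p) = g p
  pl : ∀ k, IsPl M (zx p₀) r (fun w => G (Γ k w))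
  cover : ∀ p ∈ ball p₀ r, ∀ ε > 0, ∀ᶠ y in 𝓝 (g p), y ∈ B' → y ∉ S →
    ∃ k, ∃ w ∈ ball (zx p) ε, Γ k w = y

/-- (E3) -/
def StPlX : Prop :=
  ∀ (Y : Type) [TopologicalSpace Y] [T2Space Y] [CompactSpace Y] [ChartedSpace (Cm 4) Y]
    [IsManifold 𝓘(ℂ, Cm 4) ω Y] (H : Type) [TopologicalSpace H] [T2Space H] [CompactSpace H]
    [ChartedSpace (Cm 3) H] [IsManifold 𝓘(ℂ, Cm 3) ω H] (ι : H → Y) (_ : IsSub ι)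
    (X : CSp) (O : Set Y) (v : Y → X.pt) (_ : IsOpenEmb X O v) (_ : DimLe X 2 (v '' O)ᶜ)
    (B : Set X.pt) (_ : ∀ y ∈ O, v y ∈ B ↔ y ∈ range ι) (S : Set X.pt) (_ : IsClosed S)
    (V : Set X.pt) (G : X.pt → Cm 4) (R : ℝ) (d : ℕ) (lam : X.pt → ℂ) (θ : Cm 4 → ℂ) (N : ℕ)
    (ζ : Fin N → X.pt → ℂ) (g : Cm 2 → X.pt) (_ : AdmP X S V G R d lam θ N ζ g)
    (σ : X.pt → ℂ) (_ : ∀ x ∈ V, X.Hol σ x) (_ : ∀ x ∈ V, (x ∈ B ↔ σ x = 0)),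
    Cv 1 {p : Cm 2 | p ∈ ball 0 R ∧ ¬ ∃ (M : Cm 4 → ℂ) (e : ℕ) (r : ℝ)
      (Γ : Fin e → Cm 3 → X.pt), PlX X S B (v '' (O ∩ range ι)) V G M g e p r Γ}

/-- (EX) for singular `X` -/
def StExS : Prop :=
  ∀ (Y : Type) [TopologicalSpace Y] [T2Space Y] [CompactSpace Y] [ChartedSpace (Cm 4) Y]
    [IsManifold 𝓘(ℂ, Cm 4) ω Y] (H : Type) [TopologicalSpace H] [T2Space H] [CompactSpace H]
    [ChartedSpace (Cm 3) H] [IsManifold 𝓘(ℂ, Cm 3) ω H] (ι : H → Y) (_ : IsSub ι)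
    (X : CSp) (_ : IsNormal 4 X) (O : Set Y) (v : Y → X.pt) (_ : IsOpenEmb X O v)
    (_ : DimLe X 2 (v '' O)ᶜ)
    (_ : Lifts X O v) (B : Set X.pt) (_ : IsClosed B)
    (_ : ∀ x, ∃ σ, X.Hol σ x ∧ ∀ᶠ x' in 𝓝 x, x' ∈ B ↔ σ x' = 0)
    (_ : ∀ y ∈ O, v y ∈ B ↔ y ∈ range ι) (S : Set X.pt) (_ : IsAn X univ S) (_ : DimLe X 2 S)
    (_ : S ⊆ (v '' O)ᶜ),
    ∃ K : ℕ, ∀ (N : ℕ) (D : Fin N → Set H) (w : Fin N → H → ℝ) (_ : ∀ i y, LogAt 3 (D i) (w i) y),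
      ∃ Λ : (Fin N → ℝ) →ₗ[ℝ] (Fin K → ℝ), ∀ c, Λ c = 0 →
        DimLe X 1 {x | x ∈ S ∧ ¬ BdAt (ι ⁻¹' O) (⋃ i, D i) (fun y => v (ι y))
          (fun y => ∑ i, c i * w i y) x}

/-- (CONTR) without the regularity of `X` along the flipped surfaces -/
def StContrS : Prop :=
  ∀ (Y : Type) [TopologicalSpace Y] [T2Space Y] [CompactSpace Y] [ChartedSpace (Cm 4) Y]
    [IsManifold 𝓘(ℂ, Cm 4) ω Y] (W : CSp) (X Z : ℕ → CSp) (r : ℕ) (v₀ : Y → W.pt)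
    (p : W.pt → (X 0).pt) (P : Bd W.pt) (G : Fin r → Set Y) (_ : T2.IsRes v₀ p P G)
    (f : ∀ j, (X j).pt → (Z j).pt) (f' : ∀ j, (X (j + 1)).pt → (Z j).pt)
    (A : ∀ j, Set (Z j).pt) (L : ∀ j, Bd (X j).pt) (L' : ∀ j, Bd (X (j + 1)).pt)
    (_ : ∀ j, IsFlip (X j) (Z j) (X (j + 1)) (f j) (f' j) (A j) (L j) (L' j))
    (O : ℕ → Set Y) (v : ∀ j, Y → (X j).pt) (_ : IsSeq X Z f f' A O v)
    (_ : O 0 = (⋃ l, G l)ᶜ) (_ : v 0 = fun y => p (v₀ y))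
    (H : Type) [TopologicalSpace H] [T2Space H] [CompactSpace H] [ConnectedSpace H]
    [ChartedSpace (Cm 3) H] [IsManifold 𝓘(ℂ, Cm 3) ω H] (ι : H → Y) (_ : IsSub ι)
    (_ : (ι ⁻¹' O 0).Nonempty) (B : ∀ j, Set (X j).pt) (_ : IsStr X O v ι B)
    (_ : ∃ J, ∀ j ≥ J, DimLe (X (j + 1)) 1 {x | f' j x ∈ A j ∧ x ∈ B (j + 1)}),
    ∃ J, ∀ j ≥ J, ThinM 3 1 (ι ⁻¹' O j \ ι ⁻¹' O (j + 1))

end Vale.Agent.P277.H615.X
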