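import Vale.Agent.P277.H615.X.PlFin
import Vale.Agent.P277.H371.X.Adm
import Vale.Agent.P277.H335.X.E4d

/-! P277, T3, (EXS): `StExS`, `StContrS` -/

namespace Vale.Agent.P277.H615.X

/-- (CONTR) without the regularity of `X` along the flipped surfaces -/
theorem stContrS : StContrS := H335.XX.stContrS_fin H371.X.stAdmP stPlX

end Vale.Agent.P277.H615.X
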