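import Vale.Agent.P277.H615.X.Iface

/-!
# P277, T3, (EXS), (E3): points of `B` with generic projections
-/

open scoped Manifold ContDiff Topology Polynomial
open Vale.Agent.P272.K Vale.Agent.P285.H281.FD Set Filter Metric

set_option linter.unusedSectionVars false

noncomputable section

namespace Vale.Agent.P277.H615.X

open Vale.Agent.P277 Vale.Agent.P277.H762 Vale.Agent.P277.T3 Vale.Agent.P277.H60.X
  Vale.Agent.P277.TX

variable {X : CSp} {S B V : Set X.pt}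
variable {Y H : Type} [TopologicalSpace Y] [ChartedSpace (Cm 4) Y] [TopologicalSpace H]
  [ChartedSpace (Cm 3) H]
variable {O : Set Y} {v : Y → X.pt} {ι : H → Y}

/-- `v ∘ ι` in charts -/
theorem vi_holAt (hι : IsSub ι) (hv : IsOpenEmb X O v) {x : H} {e : Chart 3 H}
    (he : At e x) (hxO : ι x ∈ O) : HolAt X (fun z => v (ι (e.symm z))) (e x) := by
  set e' := chartAt (Cm 4) (ι x) with he'
  have hAt : At e' (ι x) := ⟨chart_mem_atlas _ _, mem_chart_source _ _⟩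
  have h4 : ContinuousAt (fun z => ι (e.symm z)) (e x) :=
    ContinuousAt.comp (g := ι) hι.cont.continuousAt (e.continuousAt_symm (e.map_source he.2))
  have hx : e.symm (e x) = x := e.left_inv he.2
  refine ⟨?_, fun f hf => ?_⟩
  · refine ContinuousAt.comp (g := v) ?_ h4
    rw [hx]
    exact hv.cont.continuousAt (hv.isOpen.mem_nhds hxO)
  · have hf' : X.Hol f (v (ι x)) := by
      have h0 : v (ι (e.symm (e x))) = v (ι x) := by rw [hx]
      rw [← h0]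
      exact hf
    have h1 := (hv.hol (ι x) hxO e' hAt f).1 hf'
    have h2 := (hι.holo x e e' he hAt).1
    have h3 : AnalyticAt ℂ (fun z => f (v (e'.symm (e' (ι (e.symm z)))))) (e x) := by
      refine AnalyticAt.fun_comp (g := fun z => f (v (e'.symm z))) ?_ h2
      rw [hx]
      exact h1
    refine h3.congr ?_
    have h5 : ∀ᶠ z in 𝓝 (e x), ι (e.symm z) ∈ e'.source := by
      refine h4.eventually (e'.open_source.mem_nhds ?_)
      show ι (e.symm (e x)) ∈ e'.source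
      rw [hx]
      exact hAt.2
    filter_upwards [h5] with z hz
    simp only [Function.comp]
    rw [e'.left_inv hz]

theorem vi_an' (hι : IsSub ι) (hv : IsOpenEmb X O v) {x : H} {e : Chart 3 H}
    (he : At e x) (hxO : ι x ∈ O) {k : ℕ} {F : X.pt → Cm k}
    (hF : ∀ i, X.Hol (fun y => F y i) (v (ι x))) :
    AnalyticAt ℂ (fun z => F (v (ι (e.symm z)))) (e x) := by
  refine AnalyticAt.pi fun i => ?_
  refine (vi_holAt hι hv he hxO).2 (fun y => F y i) ?_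
  show X.Hol _ (v (ι (e.symm (e x))))
  rw [e.left_inv he.2]
  exact hF i

/-- images of small sets under holomorphic maps to `ℂ^k` -/
theorem cv_im {d k : ℕ} {F : X.pt → Cm k} (hF : ∀ y ∈ V, ∀ i, X.Hol (fun y => F y i) y)
    {Z : Set X.pt} (hZV : Z ⊆ V) (hZ : DimLe X d Z) : Cv d (F '' Z) := by
  obtain ⟨Ω, G, h1, h2, h3⟩ := hZ
  refine ⟨fun l => {p | p ∈ Ω l ∧ ∀ i, X.Hol (fun y => F y i) (G l p)}, fun l p => F (G l p),
    fun l => ?_, fun l p hp => ?_, ?_⟩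
  · rw [isOpen_iff_eventually]
    intro p hp
    exact ((h1 l).eventually_mem hp.1).and
      ((h2 l p hp.1).1.eventually (eventually_all.2 fun i => hol_eventually (hp.2 i)))
  · exact AnalyticAt.pi fun i => (h2 l p hp.1).analyticAt (hp.2 i)
  · rintro _ ⟨y, hy, rfl⟩
    obtain ⟨l, q, hq, rfl⟩ := mem_iUnion.1 (h3 hy)
    exact mem_iUnion.2 ⟨l, q, ⟨hq, fun i => hF _ (hZV hy) i⟩, rfl⟩

/-- there are points of `B` in every open set meeting `B'` whose image avoids a thin set -/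
theorem exists_pt (hR : StRank) (hι : IsSub ι) (hv : IsOpenEmb X O v)
    {G : X.pt → Cm 4} (hG : ∀ x ∈ V, ∀ i, X.Hol (fun y => G y i) x)
    (hfin : ∀ z, {x | x ∈ V ∧ G x = z}.Countable) {Z : Set (Cm 4)} (hZ : Cv 2 Z)
    {U : Set X.pt} (hU : IsOpen U) (hUV : U ⊆ V) {y : X.pt} (hyU : y ∈ U)
    (hy : y ∈ v '' (O ∩ range ι)) : ∃ y' ∈ U, y' ∈ v '' (O ∩ range ι) ∧ G y' ∉ Z := by
  obtain ⟨_, ⟨hxO, x, rfl⟩, rfl⟩ := hy
  set e := chartAt (Cm 3) x with he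
  have hAt : At e x := ⟨chart_mem_atlas _ _, mem_chart_source _ _⟩
  have hWo : IsOpen (O ∩ v ⁻¹' U) := hv.cont.isOpen_inter_preimage hv.isOpen hU
  set N : Set (Cm 3) := e.target ∩ e.symm ⁻¹' (ι ⁻¹' (O ∩ v ⁻¹' U)) with hN
  have hNo : IsOpen N := e.isOpen_inter_preimage_symm (hWo.preimage hι.cont)
  have hNx : e x ∈ N := by
    refine ⟨e.map_source hAt.2, ?_⟩
    show ι (e.symm (e x)) ∈ O ∩ v ⁻¹' U
    rw [e.left_inv hAt.2]
    exact ⟨hxO, hyU⟩
  have hFan : ∀ z ∈ N, AnalyticAt ℂ (fun z => G (v (ι (e.symm z)))) z := by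
    intro z hz
    have hAt' : At e (e.symm z) := ⟨hAt.1, e.map_target hz.1⟩
    have h1 := vi_an' (F := G) hι hv hAt' hz.2.1 (fun i => hG _ (hUV hz.2.2) i)
    rwa [e.right_inv hz.1] at h1
  by_cases h : ∃ z ∈ N, Function.Injective (fderiv ℂ (fun z => G (v (ι (e.symm z)))) z)
  · obtain ⟨z, hz, hinj⟩ := h
    obtain ⟨q, hq, hqZ⟩ := exists_notMem_of_cv (m := 3) (d := 2) (by norm_num) (hFan z hz) hinj hZ
      (hNo.mem_nhds hz)
    exact ⟨v (ι (e.symm q)), hq.2.2, ⟨_, ⟨hq.2.1, mem_range_self _⟩, rfl⟩, hqZ⟩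
  · exfalso
    push Not at h
    obtain ⟨z, hz, hunc⟩ := hR 3 4 N hNo ⟨_, hNx⟩ _ hFan h
    apply hunc
    refine MapsTo.countable_of_injOn (f := fun w => v (ι (e.symm w)))
      (t := {x | x ∈ V ∧ G x = G (v (ι (e.symm z)))}) ?_ ?_ (hfin _)
    · rintro w ⟨hw, hw'⟩
      exact ⟨hUV hw.2.2, hw'⟩
    · rintro w ⟨hw, -⟩ w' ⟨hw', -⟩ hww
      have h1 : ι (e.symm w) = ι (e.symm w') := hv.inj hw.2.1 hw'.2.1 hww
      exact e.symm.injOn hw.1 hw'.1 (hι.inj h1)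

/-- `B` has dimension `≤ 3` -/
theorem dimLe_three [CompactSpace H] (hι : IsSub ι) (hv : IsOpenEmb X O v)
    (hdim : DimLe X 2 (v '' O)ᶜ) (hBH : ∀ y ∈ O, v y ∈ B ↔ y ∈ range ι) : DimLe X 3 B := by
  have hX : Nonempty X.pt := hdim.nonempty
  obtain ⟨t, ht⟩ := isCompact_univ.elim_finite_subcover
    (fun x : H => (chartAt (Cm 3) x).source) (fun x => (chartAt (Cm 3) x).open_source)
    fun x _ => mem_iUnion.2 ⟨x, mem_chart_source _ x⟩
  have h1 : DimLe X 3 (v '' (O ∩ range ι)) := by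
    refine dimLe_of_family (κ := t) (fun x => (chartAt (Cm 3) x.1).target ∩
      (chartAt (Cm 3) x.1).symm ⁻¹' (ι ⁻¹' O))
      (fun x z => v (ι ((chartAt (Cm 3) x.1).symm z))) ?_ ?_ ?_
    · intro x
      exact (chartAt (Cm 3) x.1).isOpen_inter_preimage_symm (hv.isOpen.preimage hι.cont)
    · rintro x p ⟨hp, hp'⟩
      have h2 := vi_holAt (x := (chartAt (Cm 3) x.1).symm p) (e := chartAt (Cm 3) x.1) hι hv
        ⟨chart_mem_atlas _ _, (chartAt (Cm 3) x.1).map_target hp⟩ hp'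
      rwa [(chartAt (Cm 3) x.1).right_inv hp] at h2
    · rintro _ ⟨_, ⟨hxO, x', rfl⟩, rfl⟩
      obtain ⟨x, hx, hxx⟩ := mem_iUnion₂.1 (ht (mem_univ x'))
      refine mem_iUnion.2 ⟨⟨x, hx⟩, chartAt (Cm 3) x x',
        ⟨(chartAt (Cm 3) x).map_source hxx, ?_⟩, ?_⟩
      · show ι ((chartAt (Cm 3) x).symm (chartAt (Cm 3) x x')) ∈ O
        rw [(chartAt (Cm 3) x).left_inv hxx]
        exact hxO
      · show v (ι ((chartAt (Cm 3) x).symm (chartAt (Cm 3) x x'))) = _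
        rw [(chartAt (Cm 3) x).left_inv hxx]
  refine (h1.union (hdim.le (by norm_num : 2 ≤ 3))).mono fun x hx => ?_
  by_cases hxO : x ∈ v '' O
  · obtain ⟨y, hy, rfl⟩ := hxO
    exact Or.inl ⟨y, ⟨hy, (hBH y hy).1 hx⟩, rfl⟩
  · exact Or.inr hxO

/-- the norm of an equation of `B` does not vanish identically -/
theorem norm_ne (hB3 : DimLe X 3 B) {G : X.pt → Cm 4} {c : Cm 4} {r : ℝ} {d : ℕ}
    {lam : X.pt → ℂ} {θ : Cm 4 → ℂ} (hc : IsCov X V G c r d lam θ) {σ : X.pt → ℂ}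
    (hσB : ∀ x ∈ V, (x ∈ B ↔ σ x = 0)) {P : Cm 4 → ℂ[X]}
    (hP : ∀ z ∈ ball c r, θ z ≠ 0 → ∀ x : Fin d → X.pt, Enum V G z x →
      P z = ∏ k, (Polynomial.X - Polynomial.C (σ (x k)))) {z : Cm 4} (hz : z ∈ ball c r) :
    ¬ (fun z => (P z).eval 0) =ᶠ[𝓝 z] 0 := by
  intro hcon
  obtain ⟨N, hN, hNo, hzN⟩ := _root_.eventually_nhds_iff.1
    ((show ∀ᶠ w in 𝓝 z, (P w).eval 0 = 0 from hcon).and (isOpen_ball.eventually_mem hz))
  have h1 : ∃ w ∈ N, θ w ≠ 0 := by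
    by_contra h
    push Not at h
    refine hc.ne z hz ?_
    filter_upwards [hNo.mem_nhds hzN] with w hw using h w hw
  obtain ⟨w, hw, hθ⟩ := h1
  have hθe : ∀ᶠ w' in 𝓝 w, θ w' ≠ 0 := (hc.an w (hN w hw).2).continuousAt.eventually_ne hθ
  refine not_cv_nhds (x := w) (by simp) ?_ (cv_im (F := G) hc.holo
    (inter_subset_left (s := V) (t := B)) (hB3.mono inter_subset_right))
  filter_upwards [hθe, hNo.mem_nhds hw] with w' h2 h3
  obtain ⟨x, hx⟩ := hc.enum w' (hN w' h3).2 h2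
  have h4 := (hN w' h3).1
  rw [hP w' (hN w' h3).2 h2 x hx, Polynomial.eval_prod, Finset.prod_eq_zero_iff] at h4
  obtain ⟨k, -, hk⟩ := h4
  have h5 : σ (x k) = 0 := by simpa using hk
  obtain ⟨h6, h7⟩ := (hx.2 (x k)).1 ⟨k, rfl⟩
  exact ⟨x k, ⟨h6, (hσB _ h6).2 h5⟩, h7⟩

end Vale.Agent.P277.H615.X
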