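import Vale.Agent.P277.H615.X.Pl1
import Vale.Agent.P277.H884.CovLift

/-!
# P277, T3, (EXS), (E3): the family of places of `B` at a generic point
-/

open scoped Manifold ContDiff Topology Polynomial
open Vale.Agent.P272.K Vale.Agent.P285.H281.FD Set Filter Metric

set_option linter.unusedSectionVars false

noncomputable section

namespace Vale.Agent.P277.H615.X

open Vale.Agent.P277 Vale.Agent.P277.H762 Vale.Agent.P277.T3 Vale.Agent.P277.H60.X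
  Vale.Agent.P277.TX

variable {X : CSp} {S B V : Set X.pt}
variable {Y H : Type} [TopologicalSpace Y] [ChartedSpace (Cm 4) Y] [TopologicalSpace H]
  [ChartedSpace (Cm 3) H]
variable {O : Set Y} {v : Y → X.pt} {ι : H → Y}

/-- powers of the first coordinate -/
def pw (m : ℕ) (w : Cm 3) : Cm 3 := ![w 0 ^ m, w 1, w 2]

theorem mem_ball_zx {p : Cm 2} {r : ℝ} (hr : 0 < r) {w : Cm 3} :
    w ∈ ball (zx p) r ↔ ‖w 0‖ < r ∧ dist (w 1) (p 0) < r ∧ dist (w 2) (p 1) < r := by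
  rw [mem_ball, dist_pi_lt_iff hr]
  constructor
  · intro h
    have h0 := h 0
    rw [show zx p 0 = 0 from rfl, dist_zero_right] at h0
    exact ⟨h0, h 1, h 2⟩
  · rintro ⟨h0, h1, h2⟩ i
    fin_cases i
    · show dist (w 0) 0 < r
      rwa [dist_zero_right]
    · exact h1
    · exact h2

theorem pw_mem {p : Cm 2} {r : ℝ} (hr : r ≤ 1) {m : ℕ} (hm : 1 ≤ m) {w : Cm 3}
    (hw : w ∈ ball (zx p) r) : pw m w ∈ ball (zx p) r := by
  have hr0 : 0 < r := dist_nonneg.trans_lt (mem_ball.1 hw)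
  rw [mem_ball_zx hr0] at hw ⊢
  refine ⟨?_, hw.2.1, hw.2.2⟩
  show ‖w 0 ^ m‖ < r
  rw [norm_pow]
  calc ‖w 0‖ ^ m ≤ ‖w 0‖ ^ 1 :=
        pow_le_pow_of_le_one (norm_nonneg _) (hw.1.le.trans hr) hm
    _ = ‖w 0‖ := pow_one _
    _ < r := hw.1

/-- all lifts of the places `γ k` near `(0, p₁)` -/
structure Lf (X : CSp) (V : Set X.pt) (G : X.pt → Cm 4) {n : ℕ} (γ : Fin n → Cm 3 → Cm 4)
    (p₁ : Cm 2) (ρ : ℝ) {κ : Type} (K : κ → Fin n) (q : κ → ℕ) (Gam : κ → Cm 3 → X.pt) :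
    Prop where
  qpos : ∀ j, 1 ≤ q j
  hol : ∀ j, ∀ w ∈ ball (zx p₁) ρ, HolAt X (Gam j) w ∧ Gam j w ∈ V ∧
    G (Gam j w) = γ (K j) (pw (q j) w)
  cover : ∀ k, ∀ w ∈ ball (zx p₁) ρ, w 0 ≠ 0 → ∀ x ∈ V, G x = γ k w →
    ∃ j w', w' 0 ^ q j = w 0 ∧ w' 1 = w 1 ∧ w' 2 = w 2 ∧ Gam j w' = x

theorem cv_zz : Cv 2 {z : Cm 4 | z 0 = 0 ∧ z 1 = 0} := by
  refine cv_of_family (κ := Unit) (fun _ => univ) (fun _ => zz) (fun _ => isOpen_univ)
    (fun _ p _ => zz_an p) ?_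
  rintro z ⟨h0, h1⟩
  exact mem_iUnion.2 ⟨(), lst z, mem_univ _, zz_lst h0 h1⟩

/-- images of zero sets -/
theorem cv_zero (hB1 : StB1) {n k : ℕ} {c : Cm (n + 1)} {ρ : ℝ} {f : Cm (n + 1) → ℂ}
    (hf : ∀ w ∈ ball c ρ, AnalyticAt ℂ f w) {w₀ : Cm (n + 1)} (hw₀ : w₀ ∈ ball c ρ)
    (hne : f w₀ ≠ 0) {F : Cm (n + 1) → Cm k} (hF : ∀ w ∈ ball c ρ, AnalyticAt ℂ F w) :
    Cv n (F '' {w | w ∈ ball c ρ ∧ f w = 0}) := by
  obtain ⟨W, g, h1, h2, h3⟩ := hB1 n (ball c ρ) f isOpen_ball hf (by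
    intro z hz hcon
    have h : EqOn f 0 (ball c ρ) := AnalyticOnNhd.eqOn_of_preconnected_of_eventuallyEq
      (g := 0) hf (fun _ _ => analyticAt_const) (convex_ball _ _).isPreconnected hz hcon
    exact hne (h hw₀))
  have h4 : Cv n {w | w ∈ ball c ρ ∧ f w = 0} := ⟨W, g, h1, fun l p hp => (h2 l p hp).1, h3⟩
  exact Cv.image h4 isOpen_ball (fun w hw => hw.1) hF

theorem plX_of (hB1 : StB1) (hR : StRank) (hι : IsSub ι) (hv : IsOpenEmb X O v)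
    (hBH : ∀ y ∈ O, v y ∈ B ↔ y ∈ range ι) {G : X.pt → Cm 4} {R : ℝ} {d : ℕ}
    {lam : X.pt → ℂ} {θ : Cm 4 → ℂ} {N : ℕ} {ζ : Fin N → X.pt → ℂ} {g : Cm 2 → X.pt}
    (hA : AdmP X S V G R d lam θ N ζ g) {σ : X.pt → ℂ} (hσ : ∀ x ∈ V, X.Hol σ x)
    (hσB : ∀ x ∈ V, (x ∈ B ↔ σ x = 0)) {M : Cm 4 → ℂ} (hM : ∀ x ∈ V, σ x = 0 → M (G x) = 0)
    {n : ℕ} {p₀ : Cm 2} {r₀ r₁ : ℝ} {γ : Fin n → Cm 3 → Cm 4}
    (hγ : ∀ k, IsPl M (zx p₀) r₁ (γ k))
    (hcov : ∀ x' ∈ ball (zz p₀) r₀, x' 0 = 0 → x' 1 = 0 → ∀ ε > 0, ∀ᶠ y in 𝓝 x', M y = 0 →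
      ¬ (y 0 = 0 ∧ y 1 = 0) → ∃ k, ∃ w ∈ ball (zx (lst x')) ε, γ k w = y)
    {p₁ : Cm 2} {ρ : ℝ} (hρ1 : ρ ≤ 1) (hρR : ball p₁ ρ ⊆ ball 0 R) (hρ₁ : ρ + dist p₁ p₀ ≤ r₁)
    (hρ₀ : ball p₁ ρ ⊆ ball p₀ r₀) {κ : Type} [Finite κ] {K : κ → Fin n} {q : κ → ℕ}
    {Gam : κ → Cm 3 → X.pt} (hL : Lf X V G γ p₁ ρ K q Gam) {p₂ : Cm 2} (hp₂ : p₂ ∈ ball p₁ ρ)
    (hgen : ∀ j, (∀ p ∈ ball p₁ ρ, Gam j (zx p) = g p) ∨ Gam j (zx p₂) ≠ g p₂) :
    ∃ (e : ℕ) (r : ℝ) (Γ : Fin e → Cm 3 → X.pt),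
      PlX X S B (v '' (O ∩ range ι)) V G M g e p₂ r Γ := by
  classical
  have hfin : Fintype κ := Fintype.ofFinite κ
  set T1 : κ → Prop := fun j => ∀ p ∈ ball p₁ ρ, Gam j (zx p) = g p with hT1
  set T2 : κ → Prop := fun j => ∀ w ∈ ball (zx p₁) ρ, σ (Gam j w) = 0 with hT2
  have hzx : ∀ {a b : Cm 2} {s : ℝ}, a ∈ ball b s → zx a ∈ ball (zx b) s := by
    intro a b s h
    rw [mem_ball, dist_zx]
    exact h
  have hb1 : ball (zx p₁) ρ ⊆ ball (zx p₀) r₁ := ball_subset_ball' (by rw [dist_zx]; exact hρ₁)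
  have hGan : ∀ j, ∀ w ∈ ball (zx p₁) ρ, AnalyticAt ℂ (fun w => G (Gam j w)) w := by
    intro j w hw
    obtain ⟨h1, h2, -⟩ := hL.hol j w hw
    exact AnalyticAt.pi fun i => h1.2 _ (hA.cov.holo _ h2 i)
  have hσan : ∀ j, ∀ w ∈ ball (zx p₁) ρ, AnalyticAt ℂ (fun w => σ (Gam j w)) w := by
    intro j w hw
    obtain ⟨h1, h2, -⟩ := hL.hol j w hw
    exact h1.2 _ (hσ _ h2)
  -- the exceptional set
  set Z : Set (Cm 4) := {z : Cm 4 | z 0 = 0 ∧ z 1 = 0} ∪ ⋃ j : {j // ¬ T2 j},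
    (fun w => G (Gam j.1 w)) '' {w | w ∈ ball (zx p₁) ρ ∧ σ (Gam j.1 w) = 0} with hZ
  have hZc : Cv 2 Z := by
    refine cv_zz.union (cv_iUnion fun j => ?_)
    obtain ⟨w₀, hw₀, hne⟩ : ∃ w₀ ∈ ball (zx p₁) ρ, σ (Gam j.1 w₀) ≠ 0 := by
      have := j.2
      simp only [hT2] at this
      push Not at this
      exact this
    exact cv_zero hB1 (f := fun w => σ (Gam j.1 w)) (hσan j.1) hw₀ hne (hGan j.1)
  -- the radius
  have hgc : ∀ p ∈ ball p₁ ρ, ContinuousAt g p := fun p hp => (hA.par p (hρR hp)).1.1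
  have hGc : ∀ j, ∀ w ∈ ball (zx p₁) ρ, ContinuousAt (Gam j) w := fun j w hw =>
    (hL.hol j w hw).1.1
  have e1 : ∀ᶠ p in 𝓝 p₂, ∀ j, ¬ T1 j → Gam j (zx p) ≠ g p := by
    refine eventually_all.2 fun j => ?_
    by_cases hj : T1 j
    · exact Eventually.of_forall fun p h => (h hj).elim
    have h1 := (hgen j).resolve_left hj
    have h2 : ContinuousAt (fun p => Gam j (zx p)) p₂ :=
      ContinuousAt.comp (g := Gam j) (hGc j _ (hzx hp₂)) (zx_an p₂).continuousAt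
    obtain ⟨U, U', hU, hU', h3, h4, hdis⟩ := t2_separation h1
    filter_upwards [h2.eventually (hU.mem_nhds h3),
      (hgc p₂ hp₂).eventually (hU'.mem_nhds h4)] with p ha hb _ hcon
    exact disjoint_left.1 hdis ha (by rw [hcon]; exact hb)
  obtain ⟨r', hr', hr'1⟩ := Metric.eventually_nhds_iff_ball.1 e1
  obtain ⟨r, hr, hrm⟩ := exists_between (show (0 : ℝ) < min r' (ρ - dist p₂ p₁) from
    lt_min hr' (by rw [mem_ball] at hp₂; linarith))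
  rw [lt_min_iff] at hrm
  have hr21 : ball p₂ r ⊆ ball p₁ ρ := ball_subset_ball' (by linarith)
  have hr21' : ball (zx p₂) r ⊆ ball (zx p₁) ρ :=
    ball_subset_ball' (by rw [dist_zx]; linarith)
  have hrρ : r ≤ 1 := by
    have := dist_nonneg (x := p₂) (y := p₁)
    linarith
  set I := {j : κ // T1 j ∧ T2 j} with hI
  let E := Fintype.equivFin I
  refine ⟨Fintype.card I, r, fun i => Gam (E.symm i).1, ⟨hr, ?_, ?_, ?_, ?_, ?_⟩⟩
  · intro p hp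
    exact hA.par p (hρR (hr21 hp))
  · intro i w hw
    obtain ⟨h1, h2, -⟩ := hL.hol (E.symm i).1 w (hr21' hw)
    exact ⟨h1, h2, (hσB _ h2).2 ((E.symm i).2.2 w (hr21' hw))⟩
  · intro i p hp
    exact (E.symm i).2.1 p (hr21 hp)
  · intro i
    have hpw : ∀ w ∈ ball (zx p₂) r, pw (q (E.symm i).1) w ∈ ball (zx p₀) r₁ := fun w hw =>
      hb1 (hr21' (pw_mem hrρ (hL.qpos _) hw))
    refine ⟨fun w hw => hGan _ w (hr21' hw), fun w hw => ?_, fun w hw => ?_, fun w hw => ?_,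
      fun w hw => ?_⟩
    · exact hM _ (hL.hol _ w (hr21' hw)).2.1 ((E.symm i).2.2 w (hr21' hw))
    · show G (Gam (E.symm i).1 w) 2 = w 1
      rw [(hL.hol _ w (hr21' hw)).2.2, (hγ _).c2 _ (hpw w hw)]
      rfl
    · show G (Gam (E.symm i).1 w) 3 = w 2
      rw [(hL.hol _ w (hr21' hw)).2.2, (hγ _).c3 _ (hpw w hw)]
      rfl
    · show w 0 = 0 ↔ G (Gam (E.symm i).1 w) 0 = 0 ∧ G (Gam (E.symm i).1 w) 1 = 0
      rw [(hL.hol _ w (hr21' hw)).2.2, ← (hγ _).exc _ (hpw w hw)]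
      have hq : q (E.symm i).1 ≠ 0 := by have := hL.qpos (E.symm i).1; omega
      exact (pow_eq_zero_iff hq).symm
  · intro p hp ε hε
    have hp1 : p ∈ ball p₁ ρ := hr21 hp
    -- separation from the other lifts
    have hsep : ∀ j, ∃ U : Set X.pt, IsOpen U ∧ g p ∈ U ∧
        (¬ T1 j → ∀ᶠ w in 𝓝 (zx p), Gam j w ∉ U) := by
      intro j
      by_cases hj : T1 j
      · exact ⟨univ, isOpen_univ, mem_univ _, fun h => (h hj).elim⟩
      have h1 : g p ≠ Gam j (zx p) :=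
        (hr'1 p (ball_subset_ball hrm.1.le hp) j hj).symm
      obtain ⟨U, U', hU, hU', hgU, hgU', hdis⟩ := t2_separation h1
      refine ⟨U, hU, hgU, fun _ => ?_⟩
      filter_upwards [(hGc j _ (hzx hp1)).eventually (hU'.mem_nhds hgU')] with w hw hwU
      exact disjoint_left.1 hdis hwU hw
    choose U hUo hgU hUj using hsep
    have e2 : ∀ᶠ w in 𝓝 (zx p), ∀ j, ¬ T1 j → Gam j w ∉ U j := by
      refine eventually_all.2 fun j => ?_
      by_cases hj : T1 j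
      · exact Eventually.of_forall fun p h => (h hj).elim
      filter_upwards [hUj j hj] with w hw _ using hw
    obtain ⟨ε₀, hε₀, he2⟩ := Metric.eventually_nhds_iff_ball.1 e2
    obtain ⟨ε₁, hε₁, hlt⟩ := exists_between (show (0 : ℝ) < min (min ε ε₀) (r - dist p p₂) from
      lt_min (lt_min hε hε₀) (by rw [mem_ball] at hp; linarith))
    rw [lt_min_iff, lt_min_iff] at hlt
    have hε₁1 : ε₁ ≤ 1 := by
      have := dist_nonneg (x := p) (y := p₂)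
      linarith
    have hbp : closedBall (zx p) ε₁ ⊆ ball (zx p₂) r :=
      closedBall_subset_ball' (by rw [dist_zx]; linarith)
    set m : ℕ := Finset.univ.sup q + 1 with hm
    have hmq : ∀ j, q j ≤ m := fun j => (Finset.le_sup (f := q) (Finset.mem_univ j)).trans
      (Nat.le_succ _)
    have hε₂ : 0 < ε₁ ^ m := pow_pos hε₁ m
    have hε₂1 : ε₁ ^ m ≤ ε₁ := by
      calc ε₁ ^ m ≤ ε₁ ^ 1 := pow_le_pow_of_le_one hε₁.le hε₁1 (by omega)
        _ = ε₁ := pow_one _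
    -- the compact set
    set Q : Set X.pt := ⋃ i : I, Gam i.1 '' closedBall (zx p) ε₁ with hQ
    have hQc : IsClosed Q := by
      refine (isCompact_iUnion fun i => ?_).isClosed
      exact (isCompact_closedBall _ _).image_of_continuousOn fun w hw =>
        (hGc i.1 w (hr21' (hbp hw))).continuousWithinAt
    have hgV : g p ∈ V ∧ G (g p) = zz p := (hA.par p (hρR hp1)).2.2
    have e3 : ∀ᶠ y in 𝓝 (g p), M (G y) = 0 → ¬ (G y 0 = 0 ∧ G y 1 = 0) →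
        ∃ k, ∃ w ∈ ball (zx p) (ε₁ ^ m), γ k w = G y := by
      have h1 := hcov (zz p) (by rw [mem_ball, dist_zz]; exact hρ₀ hp1) rfl rfl _ hε₂
      rw [lst_zz] at h1
      have h2 := TX.IsCov.continuousAt hA.cov hgV.1
      rw [← hgV.2] at h1
      exact h2.eventually h1
    obtain ⟨W, hW, hWo, hgW⟩ := _root_.eventually_nhds_iff.1 (e3.and
      ((hA.cov.isOpen.eventually_mem hgV.1).and
        ((isOpen_iInter_of_finite hUo).eventually_mem (mem_iInter.2 hgU))))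
    filter_upwards [hWo.mem_nhds hgW] with y hy hyB _
    by_contra hcon
    have hyQ : y ∉ Q := by
      intro h
      obtain ⟨i, w, hw, rfl⟩ := mem_iUnion.1 h
      refine hcon ⟨E i, w, closedBall_subset_ball hlt.1.1 hw, ?_⟩
      show Gam (E.symm (E i)).1 w = Gam i.1 w
      rw [E.symm_apply_apply]
    have hcnt : ∀ z, {x | x ∈ V ∧ G x = z}.Countable := by
      intro z
      by_cases hz : z ∈ ball (0 : Cm 4) R
      · exact (hA.cov.finite z hz).1.countable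
      · refine Set.Countable.mono ?_ countable_empty
        rintro x ⟨hx, rfl⟩
        exact hz (hA.cov.maps x hx)
    obtain ⟨y', ⟨hy'W, hy'Q⟩, hy'B, hy'Z⟩ := exists_pt hR hι hv hA.cov.holo hcnt hZc
      (U := W \ Q) (hWo.sdiff hQc) (fun x hx => (hW x hx.1).2.1) ⟨hy, hyQ⟩ hyB
    obtain ⟨h1, h2, h3⟩ := hW y' hy'W
    have hσ0 : σ y' = 0 := by
      obtain ⟨u, ⟨huO, hur⟩, huy⟩ := hy'B
      rw [← hσB y' h2, ← huy]
      exact (hBH u huO).2 hur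
    have hGy : ¬ (G y' 0 = 0 ∧ G y' 1 = 0) := fun h => hy'Z (Or.inl h)
    obtain ⟨k, w, hw, hγw⟩ := h1 (hM y' h2 hσ0) hGy
    have hwε : w ∈ ball (zx p) ε₁ := ball_subset_ball hε₂1 hw
    have hw1 : w ∈ ball (zx p₁) ρ := hr21' (hbp (ball_subset_closedBall hwε))
    have hw0 : w 0 ≠ 0 := by
      intro h
      have h5 := ((hγ k).exc w (hb1 hw1)).1 h
      rw [hγw] at h5
      exact hGy h5
    obtain ⟨j, w', h0', h1', h2', h3'⟩ := hL.cover k w hw1 hw0 y' h2 hγw.symm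
    have hw' : w' ∈ ball (zx p) ε₁ := by
      rw [mem_ball_zx hε₁]
      rw [mem_ball_zx hε₂] at hw
      refine ⟨?_, by rw [h1']; exact hw.2.1.trans_le hε₂1, by rw [h2']; exact hw.2.2.trans_le hε₂1⟩
      have h5 : ‖w' 0‖ ^ q j < ε₁ ^ q j := by
        rw [← norm_pow, h0']
        exact hw.1.trans_le (pow_le_pow_of_le_one hε₁.le hε₁1 (hmq j))
      exact lt_of_pow_lt_pow_left₀ _ hε₁.le h5
    have hw'1 : w' ∈ ball (zx p₁) ρ := hr21' (hbp (ball_subset_closedBall hw'))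
    have hj2 : T2 j := by
      by_contra hj
      refine hy'Z (Or.inr (mem_iUnion.2 ⟨⟨j, hj⟩, w', ⟨hw'1, ?_⟩, ?_⟩))
      · show σ (Gam j w') = 0
        rw [h3']; exact hσ0
      · show G (Gam j w') = G y'
        rw [h3']
    have hj1 : T1 j := by
      by_contra hj
      refine he2 w' (ball_subset_ball hlt.1.2.le hw') j hj ?_
      rw [h3']
      exact mem_iInter.1 h3 j
    exact hy'Q (mem_iUnion.2 ⟨⟨j, hj1, hj2⟩, w', ball_subset_closedBall hw', h3'⟩)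

end Vale.Agent.P277.H615.X
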