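import Vale.Agent.P277.H615.X.Pl2
import Vale.Agent.P277.H60.X.GoodOf

/-!
# P277, T3, (EXS), (E3): places of `B` along surfaces of singular spaces
-/

open scoped Manifold ContDiff Topology Polynomial
open Vale.Agent.P272.K Vale.Agent.P285.H281.FD Set Filter Metric

set_option linter.unusedSectionVars false

noncomputable section

namespace Vale.Agent.P277.H615.X

open Vale.Agent.P277 Vale.Agent.P277.H762 Vale.Agent.P277.T3 Vale.Agent.P277.H60.X
  Vale.Agent.P277.TX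

theorem exists_pos_le {κ : Type} [Finite κ] {f : κ → ℝ} (hf : ∀ k, 0 < f k) :
    ∃ ε > 0, ∀ k, ε ≤ f k := by
  rcases isEmpty_or_nonempty κ with h | h
  · exact ⟨1, one_pos, fun k => (h.false k).elim⟩
  · obtain ⟨k₀, hk₀⟩ := Finite.exists_min f
    exact ⟨f k₀, hf k₀, hk₀⟩

theorem stPlX_of (hPl : StPlace) (hB1 : StB1) (hR : StRank) (hLF : StLiftFib) : StPlX := by
  classical
  intro Y _ _ _ _ _ H _ _ _ _ _ ι hι X O v hv hdim B hBH S hS V G R d lam θ N ζ g hA σ hσ hσB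
  obtain ⟨P, hP1, hP2, hP3⟩ := hA.cov.sym σ hσ
  set M : Cm 4 → ℂ := fun z => (P z).eval 0 with hMdef
  have hMan : ∀ z ∈ ball (0 : Cm 4) R, AnalyticAt ℂ M z := by
    intro z hz
    refine ((hP1 z hz).2.2 0).congr (Eventually.of_forall fun w => ?_)
    exact Polynomial.coeff_zero_eq_eval_zero _
  have hMne : ∀ z ∈ ball (0 : Cm 4) R, ¬ M =ᶠ[𝓝 z] 0 := fun z hz =>
    norm_ne (dimLe_three hι hv hdim hBH) hA.cov hσB hP3 hz
  have hM : ∀ x ∈ V, σ x = 0 → M (G x) = 0 := by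
    intro x hx h0
    have := hP2 x hx
    rw [h0] at this
    exact this
  have hb1 : Cv 1 {z | z ∈ ball (0 : Cm 4) R ∧ z 0 = 0 ∧ z 1 = 0 ∧ ¬ PlaceAt M z} :=
    hPl _ isOpen_ball M hMan hMne
  have hb1' := Cv.image hb1 isOpen_univ (subset_univ _) fun z _ => lst_an z
  set Bad : Set (Cm 2) := {p : Cm 2 | p ∈ ball 0 R ∧ ¬ ∃ (M : Cm 4 → ℂ) (e : ℕ) (r : ℝ)
      (Γ : Fin e → Cm 3 → X.pt), PlX X S B (v '' (O ∩ range ι)) V G M g e p r Γ} with hBad
  have hzz0 : ∀ {p : Cm 2}, p ∈ ball (0 : Cm 2) R → zz p ∈ ball (0 : Cm 4) R := by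
    intro p hp
    have h0 : zz 0 = 0 := by ext i; fin_cases i <;> rfl
    rw [mem_ball, ← h0, dist_zz]
    exact hp
  have h2 : Cv 1 {p | p ∈ Bad ∧ PlaceAt M (zz p)} := by
    refine cv_of_local ?_
    rintro p₀ ⟨⟨hp₀, -⟩, n, r, γ, hr, hγ, hcov⟩
    have hpl : ∀ k, IsPl M (zx p₀) r (γ k) := fun k =>
      ⟨fun w hw => (hγ k w hw).1, fun w hw => (hγ k w hw).2.1, fun w hw => (hγ k w hw).2.2.1,
        fun w hw => (hγ k w hw).2.2.2.1, fun w hw => (hγ k w hw).2.2.2.2⟩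
    have e1 : ∀ᶠ w in 𝓝 (zx p₀), ∀ k, γ k w ∈ ball (0 : Cm 4) R := by
      refine eventually_all.2 fun k => ?_
      refine ((hpl k).an _ (mem_ball_self hr)).continuousAt.eventually (isOpen_ball.mem_nhds ?_)
      rw [(hpl k).at_zx (mem_ball_self hr)]
      exact hzz0 hp₀
    obtain ⟨s, hs, hs1⟩ := Metric.eventually_nhds_iff_ball.1 e1
    set r₁ := min s r with hr₁
    have hr₁0 : 0 < r₁ := lt_min hs hr
    have hr₁r : r₁ ≤ r := min_le_right _ _
    have hsub : ball (zx p₀) r₁ ⊆ ball (zx p₀) r := ball_subset_ball hr₁r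
    have hpl₁ : ∀ k, IsPl M (zx p₀) r₁ (γ k) := fun k =>
      ⟨fun w hw => (hpl k).an w (hsub hw), fun w hw => (hpl k).zero w (hsub hw),
        fun w hw => (hpl k).c2 w (hsub hw), fun w hw => (hpl k).c3 w (hsub hw),
        fun w hw => (hpl k).exc w (hsub hw)⟩
    have hlf : ∀ k, Cv 1 {p : Cm 2 | zx p ∈ ball (zx p₀) r₁ ∧ ¬ ∃ (ρ : ℝ) (e : ℕ)
        (q : Fin e → ℕ) (Gam : Fin e → Cm 3 → X.pt), LiftFib X V G (γ k) p ρ e q Gam} :=
      fun k => hLF X V G 0 R d lam θ hA.cov N ζ hA.coord (zx p₀) rfl r₁ (γ k) fun w hw =>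
        ⟨(hpl₁ k).an w hw, hs1 w (ball_subset_ball (min_le_left _ _) hw) k⟩
    have h3 : Cv 1 {p | p ∈ Bad ∧ p ∈ ball p₀ r₁ ∧ ∀ k, ∃ (ρ : ℝ) (e : ℕ)
        (q : Fin e → ℕ) (Gam : Fin e → Cm 3 → X.pt), LiftFib X V G (γ k) p ρ e q Gam} := by
      refine cv_of_local ?_
      rintro p₁ ⟨⟨hp₁R, -⟩, hp₁, hL⟩
      choose ρ e q Gam hL using hL
      choose δ hδ hcovL using fun k => (hL k).cover
      obtain ⟨ρ₁, hρ₁0, hρ₁⟩ := exists_pos_le fun k => (hL k).pos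
      obtain ⟨ρ₂, hρ₂0, hρ₂⟩ := exists_pos_le hδ
      rw [mem_ball] at hp₁R hp₁
      set ρ' : ℝ := min (min ρ₁ ρ₂) (min 1 (min (R - dist p₁ 0) (r₁ - dist p₁ p₀))) with hρ'
      have hρ'0 : 0 < ρ' := lt_min (lt_min hρ₁0 hρ₂0) (lt_min one_pos
        (lt_min (by linarith) (by linarith)))
      have ha : ρ' ≤ ρ₁ := (min_le_left _ _).trans (min_le_left _ _)
      have hb : ρ' ≤ ρ₂ := (min_le_left _ _).trans (min_le_right _ _)
      have hc : ρ' ≤ 1 := (min_le_right _ _).trans (min_le_left _ _)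
      have hd : ρ' ≤ R - dist p₁ 0 :=
        (min_le_right _ _).trans ((min_le_right _ _).trans (min_le_left _ _))
      have he : ρ' ≤ r₁ - dist p₁ p₀ :=
        (min_le_right _ _).trans ((min_le_right _ _).trans (min_le_right _ _))
      have hLf : Lf X V G γ p₁ ρ' (κ := Σ k, Fin (e k)) (fun j => j.1) (fun j => q j.1 j.2)
          (fun j => Gam j.1 j.2) := by
        refine ⟨fun j => (hL j.1).qpos j.2, fun j w hw => ?_, fun k w hw hw0 x hx hGx => ?_⟩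
        · exact (hL j.1).hol j.2 w (ball_subset_ball (ha.trans (hρ₁ j.1)) hw)
        · obtain ⟨j, w', -, h1, h2, h3, h4⟩ := hcovL k w
            (ball_subset_ball (hb.trans (hρ₂ k)) hw) hw0 x hx hGx
          exact ⟨⟨k, j⟩, w', h1, h2, h3, h4⟩
      have hρR : ball p₁ ρ' ⊆ ball 0 R := ball_subset_ball' (by linarith)
      have hbad : ∀ j : Σ k, Fin (e k), Cv 1 {p | p ∈ ball p₁ ρ' ∧
          ¬ (∀ p ∈ ball p₁ ρ', Gam j.1 j.2 (zx p) = g p) ∧ Gam j.1 j.2 (zx p) = g p} := by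
        intro j
        by_cases hj : ∀ p ∈ ball p₁ ρ', Gam j.1 j.2 (zx p) = g p
        · refine cv_empty.mono ?_
          rintro p ⟨-, h, -⟩
          exact h hj
        push Not at hj
        obtain ⟨p₃, hp₃, hne⟩ := hj
        have hzx : ∀ p ∈ ball p₁ ρ', zx p ∈ ball (zx p₁) ρ' := fun p hp => by
          rw [mem_ball, dist_zx]; exact hp
        have hm3 := hLf.hol j _ (hzx p₃ hp₃)
        have hex : ∃ a, ζ a (Gam j.1 j.2 (zx p₃)) - ζ a (g p₃) ≠ 0 := by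
          by_contra hcon
          push Not at hcon
          exact hne (hA.coord.injOn hm3.2.1 (hA.par p₃ (hρR hp₃)).2.2.1
            (funext fun a => sub_eq_zero.1 (hcon a)))
        obtain ⟨a, ha⟩ := hex
        have h5 := cv_zero (F := fun p => p) hB1 (c := p₁) (ρ := ρ')
          (f := fun p => ζ a (Gam j.1 j.2 (zx p)) - ζ a (g p)) (fun p hp => by
            have h6 := hLf.hol j _ (hzx p hp)
            refine AnalyticAt.sub ?_ ?_
            · exact AnalyticAt.fun_comp (g := fun w => ζ a (Gam j.1 j.2 w))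
                (h6.1.2 _ (hA.coord.hol a _ h6.2.1)) (zx_an p)
            · exact (hA.par p (hρR hp)).1.2 _ (hA.coord.hol a _ (hA.par p (hρR hp)).2.2.1))
          hp₃ ha (fun p _ => analyticAt_id)
        refine h5.mono ?_
        rintro p ⟨hp, -, hpe⟩
        refine ⟨p, ⟨hp, ?_⟩, rfl⟩
        rw [hpe, sub_self]
      refine ⟨ball p₁ ρ', ball_mem_nhds _ hρ'0, (cv_iUnion hbad).mono ?_⟩
      rintro p₂ ⟨hp₂, ⟨-, hno⟩, -, -⟩
      by_contra hcon
      apply hno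
      obtain ⟨e', r', Γ, h⟩ := plX_of hB1 hR hι hv hBH hA hσ hσB hM (γ := γ) (p₀ := p₀)
        (r₀ := r) (r₁ := r₁) hpl₁ (fun x' hx' h0 h1 ε hε => hcov x' hx' h0 h1 ε hε) hc hρR
        (by linarith) (ball_subset_ball' (by linarith)) hLf hp₂ (fun j => by
          by_contra hj
          push Not at hj
          obtain ⟨⟨p₃, hp₃, hne⟩, hj2⟩ := hj
          exact hcon (mem_iUnion.2 ⟨j, hp₂, fun h => hne (h p₃ hp₃), hj2⟩))
      exact ⟨M, e', r', Γ, h⟩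
    refine ⟨ball p₀ r₁, ball_mem_nhds _ hr₁0, ((cv_iUnion hlf).union h3).mono ?_⟩
    rintro p ⟨hp, hpB, -⟩
    by_cases h : ∀ k, ∃ (ρ : ℝ) (e : ℕ) (q : Fin e → ℕ) (Gam : Fin e → Cm 3 → X.pt),
        LiftFib X V G (γ k) p ρ e q Gam
    · exact Or.inr ⟨hpB, hp, h⟩
    · push Not at h
      obtain ⟨k, hk⟩ := h
      refine Or.inl (mem_iUnion.2 ⟨k, by rw [mem_ball, dist_zx]; exact hp, ?_⟩)
      push Not
      exact hk
  refine (hb1'.union h2).mono ?_
  intro p hp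
  by_cases hP : PlaceAt M (zz p)
  · exact Or.inr ⟨hp, hP⟩
  · exact Or.inl ⟨zz p, ⟨hzz0 hp.1, rfl, rfl, hP⟩, lst_zz p⟩

end Vale.Agent.P277.H615.X
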