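import Vale.Agent.P277.H615.X.Pl3
import Vale.Agent.P277.H371.X.StLF
import Vale.Agent.P277.H884.PL4
import Vale.Agent.P277.H622.B1
import Vale.Agent.P277.H19.Rank

/-! P277, T3, (EXS), (E3): `StPlX` -/

namespace Vale.Agent.P277.H615.X

theorem stPlX : StPlX :=
  stPlX_of Vale.Agent.P277.H884.PL.stPlace H622.stB1 H19.stRank H371.X.stLiftFib

end Vale.Agent.P277.H615.X
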